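import Vale.Agent.P307.Directed

/-!
# Structures made of small connected components
-/

universe u

open FirstOrder Cardinal

namespace Vale.Agent.P307

/-- A structure on a subset of `Z` (relations of positive arity only are used). -/
structure Piece (L : Language.{u, u}) (Z : Type u) where
  dom : Set Z
  rel : ∀ n, L.Relations n → Set (Fin n → Z)

namespace Piece

variable {L : Language.{u, u}} {Z : Type u}

/-- Adjacency inside a piece. -/
def Adj (d : Piece L Z) (a b : Z) : Prop :=
  ∃ (n : ℕ) (R : L.Relations n) (x : Fin n → Z),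
    x ∈ d.rel n R ∧ (∀ i, x i ∈ d.dom) ∧ (∃ i, x i = a) ∧ ∃ j, x j = b

/-- A nonempty piece with connected adjacency graph. -/
def Conn (d : Piece L Z) : Prop :=
  d.dom.Nonempty ∧ ∀ a ∈ d.dom, ∀ b ∈ d.dom, Relation.ReflTransGen d.Adj a b

/-- An isomorphism of pieces. -/
def IsIso (d d' : Piece L Z) : Prop :=
  ∃ e : d.dom ≃ d'.dom, ∀ (n : ℕ), n ≠ 0 → ∀ (R : L.Relations n) (x : Fin n → d.dom),
    ((fun i => (e (x i) : Z)) ∈ d'.rel n R ↔ (fun i => (x i : Z)) ∈ d.rel n R)

theorem IsIso.refl (d : Piece L Z) : d.IsIso d :=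
  ⟨Equiv.refl _, fun _ _ _ _ => Iff.rfl⟩

theorem IsIso.symm {d d' : Piece L Z} (h : d.IsIso d') : d'.IsIso d := by
  obtain ⟨e, he⟩ := h
  refine ⟨e.symm, fun n hn R x => ?_⟩
  have := he n hn R (fun i => e.symm (x i))
  simpa using this.symm

theorem IsIso.trans {d d' d'' : Piece L Z} (h : d.IsIso d') (h' : d'.IsIso d'') :
    d.IsIso d'' := by
  obtain ⟨e, he⟩ := h
  obtain ⟨e', he'⟩ := h'
  refine ⟨e.trans e', fun n hn R x => ?_⟩
  exact (he' n hn R (fun i => e (x i))).trans (he n hn R x)

end Piece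

variable (L : Language.{u, u}) (Z : Type u)

/-- The setoid of isomorphism on connected pieces. -/
instance pieceSetoid : Setoid {d : Piece L Z // d.Conn} where
  r d d' := d.1.IsIso d'.1
  iseqv := ⟨fun d => Piece.IsIso.refl d.1, Piece.IsIso.symm, Piece.IsIso.trans⟩

/-- Isomorphism types of connected pieces. -/
def Colour : Type u := Quotient (pieceSetoid L Z)

variable {L Z}

/-- The canonical piece of a colour. -/
noncomputable def Colour.rep (t : Colour L Z) : Piece L Z := (Quotient.out t).1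

theorem Colour.rep_conn (t : Colour L Z) : t.rep.Conn := (Quotient.out t).2

theorem Colour.eq_of_isIso {t t' : Colour L Z} (h : t.rep.IsIso t'.rep) : t = t' := by
  rw [← Quotient.out_eq t, ← Quotient.out_eq t']
  exact Quotient.sound h

theorem mk_colour_le {c : Cardinal.{u}} (hc : ℵ₀ ≤ c) (hZ : #Z ≤ c) (hL : L.card ≤ c) :
    #(Colour L Z) ≤ 2 ^ c := by
  have h1 : #(Colour L Z) ≤ #(Piece L Z) :=
    (Cardinal.mk_quotient_le).trans (Cardinal.mk_subtype_le _)
  refine h1.trans ?_
  let f : Piece L Z → Set (Z ⊕ (Σ n, L.Relations n × (Fin n → Z))) := fun d =>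
    Sum.elim (fun z => z ∈ d.dom) (fun p => p.2.2 ∈ d.rel p.1 p.2.1)
  have hf : Function.Injective f := by
    rintro ⟨a, b⟩ ⟨a', b'⟩ h
    have ha : a = a' := Set.ext fun z => iff_of_eq (congrFun h (Sum.inl z))
    have hb : b = b' := by
      funext n R
      exact Set.ext fun x => iff_of_eq (congrFun h (Sum.inr ⟨n, R, x⟩))
    subst ha hb
    rfl
  refine (Cardinal.mk_le_of_injective hf).trans ?_
  rw [Cardinal.mk_set]
  refine Cardinal.power_le_power_left two_ne_zero ?_
  rw [Cardinal.mk_sum, Cardinal.lift_id, Cardinal.lift_id]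
  refine (add_le_add hZ ?_).trans (Cardinal.add_eq_self hc).le
  rw [Cardinal.mk_sigma]
  have hn : ∀ n : ℕ, #(L.Relations n × (Fin n → Z)) ≤ c := by
    intro n
    have hR : #(L.Relations n) ≤ c := by
      refine le_trans ?_ hL
      exact Cardinal.mk_le_of_injective (f := fun R => (Sum.inr ⟨n, R⟩ : L.Symbols))
        (fun a b h => by simpa using h)
    have hF : #(Fin n → Z) ≤ c := by
      simp only [Cardinal.mk_pi, Cardinal.prod_const, Cardinal.lift_id', Cardinal.mk_fin,
        Cardinal.lift_natCast, Cardinal.power_natCast]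
      exact (pow_le_pow_left' hZ n).trans (Cardinal.power_nat_le hc)
    simp only [Cardinal.mk_prod, Cardinal.lift_id]
    exact (mul_le_mul' hR hF).trans (Cardinal.mul_eq_self hc).le
  refine (Cardinal.sum_le_sum _ (fun _ => c) hn).trans ?_
  rw [Cardinal.sum_const, Cardinal.mk_nat, Cardinal.lift_aleph0, Cardinal.lift_id']
  exact (mul_le_mul' hc le_rfl).trans (Cardinal.mul_eq_self hc).le

/-- Points of the structure with component index set `Q` coloured by `τ`; the parameter `s` gives
the truth values of the nullary relations. -/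
@[ext]
structure Pt (s : ∀ n, L.Relations n → Prop) {Q : Type u} (τ : Q → Colour L Z) : Type u where
  q : Q
  z : Z
  mem : z ∈ (τ q).rep.dom

variable {s : ∀ n, L.Relations n → Prop}

noncomputable instance ptStructure [L.IsRelational] {Q : Type u} (τ : Q → Colour L Z) :
    L.Structure (Pt s τ) where
  funMap f := isEmptyElim f
  RelMap {n} R x := (n = 0 ∧ s n R) ∨
    (n ≠ 0 ∧ ∃ q, (∀ i, (x i).q = q) ∧ (fun i => (x i).z) ∈ (τ q).rep.rel n R)

theorem mk_pt_le {Q : Type u} (τ : Q → Colour L Z) : #(Pt s τ) ≤ #Q * #Z := by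
  rw [Cardinal.mul_def]
  exact Cardinal.mk_le_of_injective (f := fun p : Pt s τ => (p.q, p.z))
    (fun a b h => Pt.ext (congrArg Prod.fst h) (congrArg Prod.snd h))

theorem le_mk_pt {Q : Type u} (τ : Q → Colour L Z) : #Q ≤ #(Pt s τ) :=
  Cardinal.mk_le_of_injective (f := fun q => (⟨q, _, (τ q).rep_conn.1.some_mem⟩ : Pt s τ))
    (fun _ _ h => congrArg Pt.q h)

noncomputable section

variable [L.IsRelational]

/-- The substructure on the components with index in `A`. -/
def block {Q : Type u} (τ : Q → Colour L Z) (A : Set Q) : L.Substructure (Pt s τ) :=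
  subOfSet {p | p.q ∈ A}

@[simp]
theorem mem_block {Q : Type u} (τ : Q → Colour L Z) (A : Set Q) (p : Pt s τ) :
    p ∈ block τ A ↔ p.q ∈ A := Iff.rfl

theorem block_mono {Q : Type u} (τ : Q → Colour L Z) : Monotone (block (s := s) τ) :=
  fun _ _ h _ hp => h hp

theorem mk_block_le {Q : Type u} (τ : Q → Colour L Z) (A : Set Q) :
    #(block (s := s) τ A) ≤ #A * #Z := by
  rw [Cardinal.mul_def]
  exact Cardinal.mk_le_of_injective
    (f := fun p : block (s := s) τ A => ((⟨p.1.q, p.2⟩ : A), p.1.z))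
    (fun a b h => Subtype.ext (Pt.ext (congrArg (fun x => (x.1 : Q)) h) (congrArg Prod.snd h)))

section maps

variable {Q Q' : Type u} {τ : Q → Colour L Z} {τ' : Q' → Colour L Z}

/-- The embedding induced by a colour-preserving injection of index sets. -/
def blockMap {A : Set Q'} (f : A → Q) (hf : Function.Injective f)
    (hτ : ∀ a, τ (f a) = τ' a) : (block (s := s) τ' A) ↪[L] Pt s τ where
  toFun p := ⟨f ⟨p.1.q, p.2⟩, p.1.z, by rw [hτ]; exact p.1.mem⟩
  inj' p p' h := by
    have h1 := hf (congrArg Pt.q h)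
    have h2 : p.1.z = p'.1.z := by simpa using congrArg Pt.z h
    exact Subtype.ext (Pt.ext (congrArg (fun a : A => (a : Q')) h1) h2)
  map_fun' g := isEmptyElim g
  map_rel' {n} R x := by
    refine or_congr Iff.rfl (and_congr_right fun hn => ?_)
    constructor
    · rintro ⟨q, hq, hr⟩
      let i : Fin n := ⟨0, Nat.pos_of_ne_zero hn⟩
      refine ⟨(x i).1.q, fun j => congrArg (fun a : A => (a : Q'))
        (hf ((hq j).trans (hq i).symm)), ?_⟩
      rw [← hq i] at hr
      simpa [hτ] using hr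
    · rintro ⟨q, hq, hr⟩
      let i : Fin n := ⟨0, Nat.pos_of_ne_zero hn⟩
      have hq' : ∀ j, (x j).1.q = (x i).1.q := fun j => (hq j).trans (hq i).symm
      refine ⟨f ⟨(x i).1.q, (x i).2⟩, fun j => congrArg f (Subtype.ext (hq' j)), ?_⟩
      simpa [hτ, hq i] using hr

theorem blockMap_apply {A : Set Q'} (f : A → Q) (hf : Function.Injective f)
    (hτ : ∀ a, τ (f a) = τ' a) (p : block (s := s) τ' A) :
    blockMap f hf hτ p = ⟨f ⟨p.1.q, p.2⟩, p.1.z, by rw [hτ]; exact p.1.mem⟩ := rfl

/-- The isomorphism induced by a colour-preserving bijection of index sets. -/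
def ptEquiv (e : Q' ≃ Q) (hτ : ∀ a, τ (e a) = τ' a) : Pt s τ' ≃[L] Pt s τ where
  toFun p := ⟨e p.q, p.z, by rw [hτ]; exact p.mem⟩
  invFun p := ⟨e.symm p.q, p.z, by rw [← hτ, e.apply_symm_apply]; exact p.mem⟩
  left_inv p := Pt.ext (e.symm_apply_apply _) rfl
  right_inv p := Pt.ext (e.apply_symm_apply _) rfl
  map_fun' g := isEmptyElim g
  map_rel' {n} R x := by
    refine or_congr Iff.rfl (and_congr_right fun hn => ?_)
    constructor
    · rintro ⟨q, hq, hr⟩
      refine ⟨e.symm q, fun j => e.eq_symm_apply.2 (hq j), ?_⟩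
      have := hτ (e.symm q)
      rw [e.apply_symm_apply] at this
      rw [← this]
      exact hr
    · rintro ⟨q, hq, hr⟩
      refine ⟨e q, fun j => congrArg e (hq j), ?_⟩
      rw [hτ]
      exact hr

/-- The isomorphism between a block and the block of its image. -/
noncomputable def blockImageEquiv {A : Set Q'} (f : A → Q) (hf : Function.Injective f)
    (hτ : ∀ a, τ (f a) = τ' a) : (block (s := s) τ' A) ≃[L] block (s := s) τ (Set.range f) where
  toFun p := ⟨blockMap f hf hτ p, ⟨_, rfl⟩⟩
  invFun p := ⟨⟨((Equiv.ofInjective f hf).symm ⟨p.1.q, p.2⟩ : Q'), p.1.z, by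
      rw [← hτ, Equiv.apply_ofInjective_symm hf]; exact p.1.mem⟩, Subtype.prop _⟩
  left_inv p := Subtype.ext (Pt.ext
    (congrArg Subtype.val (Equiv.ofInjective_symm_apply hf ⟨p.1.q, p.2⟩)) rfl)
  right_inv p := Subtype.ext (Pt.ext (Equiv.apply_ofInjective_symm hf _) rfl)
  map_fun' g := isEmptyElim g
  map_rel' R x := (blockMap f hf hτ).map_rel' R x

end maps

end

end Vale.Agent.P307
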