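import Vale.Agent.P307.Colour

/-!
# Membership only depends on the colour counts truncated above the Löwenheim–Skolem number
-/

universe u

open FirstOrder Cardinal

namespace Vale.Agent.P307

variable {L : Language.{u, u}} {Z : Type u} [L.IsRelational]

/-- The number of indices of a given colour. -/
def cnt {Q : Type u} (τ : Q → Colour L Z) (t : Colour L Z) : Cardinal.{u} :=
  #{q // τ q = t}

theorem exists_perm {α β : Type u} [Infinite α] (f f' : β → α) (hf : Function.Injective f)
    (hf' : Function.Injective f') (hlt : #β < #α) : ∃ π : α ≃ α, ∀ b, π (f b) = f' b := by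
  classical
  have h1 : #(Set.range f) < #α := (Cardinal.mk_range_eq f hf).trans_lt hlt
  have h2 : #(Set.range f') < #α := (Cardinal.mk_range_eq f' hf').trans_lt hlt
  have hc : #((Set.range f)ᶜ : Set α) = #((Set.range f')ᶜ : Set α) :=
    (Cardinal.mk_compl_of_infinite _ h1).trans (Cardinal.mk_compl_of_infinite _ h2).symm
  obtain ⟨ec⟩ := Cardinal.eq.1 hc
  let er : Set.range f ≃ Set.range f' :=
    (Equiv.ofInjective f hf).symm.trans (Equiv.ofInjective f' hf')
  refine ⟨(Equiv.Set.sumCompl (Set.range f)).symm.trans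
    ((Equiv.sumCongr er ec).trans (Equiv.Set.sumCompl (Set.range f'))), fun b => ?_⟩
  simp [Equiv.Set.sumCompl_symm_apply_of_mem (Set.mem_range_self (f := f) b), er]

variable {s : ∀ n, L.Relations n → Prop} (K : AEC L) {l : Cardinal.{u}}

/-- Every small set of indices lies in a small set whose block is strong. -/
theorem exists_strong_block (hl : ℵ₀ ≤ l) (hZ : #Z ≤ l) (hLS : K.HasLS l) {Q : Type u}
    {τ : Q → Colour L Z} (hM : K.Mem (Pt s τ)) (A : Set Q) (hA : #A ≤ l) :
    ∃ B : Set Q, A ⊆ B ∧ #B ≤ l ∧ K.Strong (block (s := s) τ B).subtype := by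
  choose S hS1 hS2 hS3 using fun B : Set Q =>
    hLS (Pt s τ) hM (block (s := s) τ B : Set (Pt s τ))
  let B : ℕ → Set Q := fun n => Nat.rec A (fun _ B => B ∪ Pt.q '' (S B : Set (Pt s τ))) n
  have hB : ∀ n, B (n + 1) = B n ∪ Pt.q '' (S (B n) : Set (Pt s τ)) := fun n => rfl
  have hcard : ∀ n, #(↥(B n)) ≤ l := by
    intro n
    induction n with
    | zero => exact hA
    | succ n ih =>
      rw [hB]
      refine (Cardinal.mk_union_le _ _).trans ((add_le_add ih ?_).trans (Cardinal.add_eq_self hl).le)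
      refine Cardinal.mk_image_le.trans ((hS3 (B n)).trans ?_)
      refine (add_le_add ((mk_block_le τ (B n)).trans ?_) le_rfl).trans (Cardinal.add_eq_self hl).le
      exact (mul_le_mul' ih hZ).trans (Cardinal.mul_eq_self hl).le
  have hSB : ∀ n, S (B n) ≤ block τ (B (n + 1)) := by
    intro n p hp
    rw [hB]
    exact Or.inr ⟨p, hp, rfl⟩
  have hBS : ∀ n, block τ (B n) ≤ S (B n) := fun n => hS1 (B n)
  have hmono : Monotone fun i : ULift.{u} ℕ => S (B i.down) := by
    intro i j h
    have : Monotone fun n => S (B n) := monotone_nat_of_le_succ fun n => (hSB n).trans (hBS (n + 1))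
    exact this h
  have : WellFoundedLT (ULift.{u} ℕ) := ⟨InvImage.wf ULift.down wellFounded_lt⟩
  refine ⟨⋃ n, B n, Set.subset_iUnion B 0, ?_, ?_⟩
  · refine ((Cardinal.lift_id'.{0, u} _).ge.trans (Cardinal.mk_iUnion_le_lift B)).trans ?_
    rw [Cardinal.mk_nat, Cardinal.lift_aleph0]
    refine (mul_le_mul' hl (ciSup_le' fun n => ?_)).trans (Cardinal.mul_eq_self hl).le
    rw [Cardinal.lift_id'.{0, u}]
    exact hcard n
  · have hle : ∀ i : ULift.{u} ℕ, S (B i.down) ≤ block τ (⋃ n, B n) :=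
      fun i => (hSB i.down).trans (block_mono τ (Set.subset_iUnion B (i.down + 1)))
    have hcover : ∀ x ∈ block (s := s) τ (⋃ n, B n), ∃ i : ULift.{u} ℕ, x ∈ S (B i.down) := by
      intro x hx
      obtain ⟨n, hn⟩ := Set.mem_iUnion.1 hx
      exact ⟨⟨n⟩, hBS n hn⟩
    have h := K.chain_in (ULift.{u} ℕ) (fun i => S (B i.down)) (block τ (⋃ n, B n)) hmono hle hcover
      (fun i j h => K.coherence _ (S (B j.down)).subtype (hS2 _)
        (K.strong_left (hS2 (B i.down)) (Language.Equiv.refl L _) fun x => rfl))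
    exact h.2 _ _ fun i => K.strong_left (hS2 (B i.down)) (Language.Equiv.refl L _) fun x => rfl

/-- A bijection between the fibres of the small colours. -/
abbrev Matching (l : Cardinal.{u}) {Q Q' : Type u} (τ : Q → Colour L Z) (τ' : Q' → Colour L Z) :
    Type u :=
  ∀ t, cnt τ' t ≤ l → ({q // τ' q = t} ≃ {q // τ q = t})

variable {Q Q' : Type u} {τ : Q → Colour L Z} {τ' : Q' → Colour L Z}

/-- An injection respecting colours and the fixed matching of small fibres. -/
structure Good (e : Matching l τ τ') (A : Set Q') (f : A → Q) : Prop where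
  inj : Function.Injective f
  col : ∀ a : A, τ (f a) = τ' a
  small : ∀ (a : A) (h : cnt τ' (τ' a) ≤ l), f a = (e _ h ⟨a, rfl⟩).1

/-- A small index set whose block is strong in the model, via a compatible injection. -/
def IsGood (s : ∀ n, L.Relations n → Prop) (e : Matching l τ τ') (A : Set Q') : Prop :=
  #A ≤ l ∧ ∃ (f : A → Q) (h : Good e A f), K.Strong (blockMap (s := s) f h.inj h.col)

theorem strong_of_good (hl : ℵ₀ ≤ l) {e : Matching l τ τ'}
    (hlarge : ∀ t, ¬ cnt τ' t ≤ l → l < cnt τ t) {A : Set Q'} {f f' : A → Q} (hA : #A ≤ l)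
    (h : Good e A f) (h' : Good e A f') (hstrong : K.Strong (blockMap (s := s) f h.inj h.col)) :
    K.Strong (blockMap (s := s) f' h'.inj h'.col) := by
  classical
  have hper : ∀ t, ∃ π : {q // τ q = t} ≃ {q // τ q = t}, ∀ (a : A) (ha : τ' a = t),
      π ⟨f a, (h.col a).trans ha⟩ = ⟨f' a, (h'.col a).trans ha⟩ := by
    intro t
    by_cases ht : cnt τ' t ≤ l
    · refine ⟨Equiv.refl _, ?_⟩
      rintro a rfl
      exact Subtype.ext ((h.small a ht).trans (h'.small a ht).symm)
    · have hlt := hlarge t ht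
      have : Infinite {q // τ q = t} := Cardinal.infinite_iff.2 (hl.trans hlt.le)
      obtain ⟨π, hπ⟩ := exists_perm
        (fun a : {a : A // τ' a = t} => (⟨f a.1, (h.col a.1).trans a.2⟩ : {q // τ q = t}))
        (fun a => ⟨f' a.1, (h'.col a.1).trans a.2⟩)
        (fun a b hab => Subtype.ext (h.inj (congrArg Subtype.val hab)))
        (fun a b hab => Subtype.ext (h'.inj (congrArg Subtype.val hab)))
        (((Cardinal.mk_subtype_le _).trans hA).trans_lt hlt)
      exact ⟨π, fun a ha => hπ ⟨a, ha⟩⟩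
  choose π hπ using hper
  let P : Q ≃ Q := (Equiv.sigmaFiberEquiv τ).symm.trans
    ((Equiv.sigmaCongrRight π).trans (Equiv.sigmaFiberEquiv τ))
  have hPc : ∀ q, τ (P q) = τ q := fun q => (π (τ q) ⟨q, rfl⟩).2
  have hPf : ∀ a : A, P (f a) = f' a := by
    intro a
    have key : ∀ (t : Colour L Z) (ht : τ (f a) = t),
        (π t ⟨f a, ht⟩ : Q) = f' a := by
      intro t ht
      obtain rfl : τ' a = t := (h.col a).symm.trans ht
      exact congrArg Subtype.val (hπ _ a rfl)
    exact key _ rfl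
  exact K.strong_right hstrong (ptEquiv P hPc) fun p => Pt.ext (hPf _) rfl

theorem exists_good (hl : ℵ₀ ≤ l) (hZ : #Z ≤ l) (hLS : K.HasLS l) (hM : K.Mem (Pt s τ))
    (e : Matching l τ τ') (hlarge : ∀ t, ¬ cnt τ' t ≤ l → l < cnt τ t)
    (A : Set Q') (hA : #A ≤ l) : ∃ A' : Set Q', A ⊆ A' ∧ IsGood K s e A' := by
  classical
  have hj : ∀ t, ∃ j : {a : A // τ' a = t} → {q // τ q = t}, Function.Injective j ∧
      ∀ (h : cnt τ' t ≤ l) a, j a = e t h ⟨a.1, a.2⟩ := by
    intro t
    by_cases ht : cnt τ' t ≤ l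
    · exact ⟨fun a => e t ht ⟨a.1, a.2⟩, fun a b hab => Subtype.ext (Subtype.ext
        (congrArg (fun x : {q // τ' q = t} => x.1) ((e t ht).injective hab))), fun h a => rfl⟩
    · obtain ⟨j⟩ := Cardinal.le_def _ _ |>.1
        (((Cardinal.mk_subtype_le _).trans hA).trans (hlarge t ht).le :
          #{a : A // τ' a = t} ≤ cnt τ t)
      exact ⟨j, j.injective, fun h => absurd h ht⟩
  choose j hj1 hj2 using hj
  let f₀ : A → Q := fun a => (j (τ' a) ⟨a, rfl⟩).1
  have hf₀c : ∀ a : A, τ (f₀ a) = τ' a := fun a => (j (τ' a) ⟨a, rfl⟩).2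
  have hf₀i : Function.Injective f₀ := by
    intro a b hab
    have hc : τ' a = τ' b := (hf₀c a).symm.trans ((congrArg τ hab).trans (hf₀c b))
    have key : ∀ (t : Colour L Z) (ha : τ' a = t), (j t ⟨a, ha⟩ : Q) = f₀ a := by
      rintro t rfl
      rfl
    exact congrArg Subtype.val (hj1 _ (Subtype.ext ((key _ hc).trans hab) :
      j (τ' b) ⟨a, hc⟩ = j (τ' b) ⟨b, rfl⟩))
  have hf₀s : ∀ (a : A) (h : cnt τ' (τ' a) ≤ l), f₀ a = (e _ h ⟨a, rfl⟩).1 :=
    fun a h => congrArg Subtype.val (hj2 _ h ⟨a, rfl⟩)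
  obtain ⟨B, hB1, hB2, hB3⟩ := exists_strong_block K hl hZ hLS hM (Set.range f₀)
    (Cardinal.mk_range_le.trans hA)
  have hk : ∀ t, ∃ k : {b : B // τ b = t} → {q // τ' q = t}, Function.Injective k ∧
      (∀ (h : cnt τ' t ≤ l) b, e t h (k b) = ⟨b.1, b.2⟩) ∧
        (¬ cnt τ' t ≤ l → ∀ b, (k b : Q') ∉ A) := by
    intro t
    by_cases ht : cnt τ' t ≤ l
    · exact ⟨fun b => (e t ht).symm ⟨b.1, b.2⟩, fun a b hab => Subtype.ext (Subtype.ext
        (congrArg (fun x : {q // τ q = t} => x.1) ((e t ht).symm.injective hab))),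
        fun h b => Equiv.apply_symm_apply _ _, fun h => absurd ht h⟩
    · have hlt : l < cnt τ' t := not_le.1 ht
      have : Infinite {q // τ' q = t} := Cardinal.infinite_iff.2 (hl.trans hlt.le)
      have hA' : #({q : {q // τ' q = t} | (q : Q') ∈ A}) < cnt τ' t := by
        refine lt_of_le_of_lt ?_ hlt
        exact (Cardinal.mk_preimage_of_injective _ A Subtype.val_injective).trans hA
      have hcompl : #(({q : {q // τ' q = t} | (q : Q') ∈ A}ᶜ : Set _)) = cnt τ' t :=
        Cardinal.mk_compl_of_infinite _ hA'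
      obtain ⟨k⟩ := Cardinal.le_def _ _ |>.1
        (((Cardinal.mk_subtype_le _).trans hB2).trans (hlt.le.trans hcompl.ge) :
          #{b : B // τ b = t} ≤ _)
      exact ⟨fun b => (k b).1, Subtype.val_injective.comp k.injective,
        fun h => absurd h ht, fun _ b => (k b).2⟩
  choose k hk1 hk2 hk3 using hk
  let g : B → Q' := fun b =>
    if hb : ∃ a, f₀ a = b then (hb.choose : Q') else (k (τ b) ⟨b, rfl⟩ : Q')
  have hgc : ∀ b : B, τ' (g b) = τ b := by
    intro b
    by_cases hb : ∃ a, f₀ a = b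
    · simp only [g, dif_pos hb]
      rw [← hf₀c, hb.choose_spec]
    · simp only [g, dif_neg hb]
      exact (k (τ b) ⟨b, rfl⟩).2
  have hgA : ∀ a : A, g ⟨f₀ a, hB1 ⟨a, rfl⟩⟩ = a := by
    intro a
    have hb : ∃ a', f₀ a' = ((⟨f₀ a, hB1 ⟨a, rfl⟩⟩ : B) : Q) := ⟨a, rfl⟩
    simp only [g, dif_pos hb]
    exact congrArg Subtype.val (hf₀i hb.choose_spec)
  have hgs : ∀ (b : B) (h : cnt τ' (τ' (g b)) ≤ l), (e _ h ⟨g b, rfl⟩ : Q) = b := by
    intro b h
    have key : ∀ (t : Colour L Z) (ht : τ' (g b) = t) (h' : cnt τ' t ≤ l),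
        (e t h' ⟨g b, ht⟩ : Q) = (e _ h ⟨g b, rfl⟩ : Q) := by
      rintro t rfl h'
      rfl
    by_cases hb : ∃ a, f₀ a = b
    · have hgb : g b = hb.choose := by simp only [g, dif_pos hb]
      have h1 := hf₀s hb.choose (by rwa [← hgb])
      rw [hb.choose_spec] at h1
      refine Eq.trans ?_ h1.symm
      rw [← key (τ' hb.choose) (congrArg τ' hgb) (by rwa [← hgb])]
      exact congrArg Subtype.val (congrArg _ (Subtype.ext hgb))
    · have hgb : g b = k (τ b) ⟨b, rfl⟩ := by simp only [g, dif_neg hb]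
      have h' : cnt τ' (τ b) ≤ l := by rwa [← hgc]
      rw [← key (τ b) (hgc b) h']
      have := congrArg Subtype.val (hk2 (τ b) h' ⟨b, rfl⟩)
      refine Eq.trans ?_ this
      exact congrArg Subtype.val (congrArg _ (Subtype.ext hgb))
  have hgi : Function.Injective g := by
    intro b b' hbb
    have hc : τ b = τ b' := (hgc b).symm.trans ((congrArg τ' hbb).trans (hgc b'))
    by_cases h : cnt τ' (τ' (g b)) ≤ l
    · have h' : cnt τ' (τ' (g b')) ≤ l := hbb ▸ h
      have h1 := hgs b h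
      have h2 := hgs b' h'
      apply Subtype.ext
      have key : ∀ (x y : Q') (hx : cnt τ' (τ' x) ≤ l) (hy : cnt τ' (τ' y) ≤ l), x = y →
          (e _ hx ⟨x, rfl⟩ : Q) = (e _ hy ⟨y, rfl⟩ : Q) := by
        rintro x y hx hy rfl
        rfl
      exact h1.symm.trans ((key _ _ h h' hbb).trans h2)
    · by_cases hb : ∃ a, f₀ a = b
      · by_cases hb' : ∃ a, f₀ a = b'
        · simp only [g, dif_pos hb, dif_pos hb'] at hbb
          exact Subtype.ext (hb.choose_spec.symm.trans
            ((congrArg f₀ (Subtype.ext hbb)).trans hb'.choose_spec))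
        · exfalso
          simp only [g, dif_pos hb, dif_neg hb'] at hbb
          refine hk3 (τ b') ?_ ⟨b', rfl⟩ (hbb ▸ hb.choose.2)
          rwa [hgc b, hc] at h
      · by_cases hb' : ∃ a, f₀ a = b'
        · exfalso
          simp only [g, dif_neg hb, dif_pos hb'] at hbb
          refine hk3 (τ b) ?_ ⟨b, rfl⟩ (hbb.symm ▸ hb'.choose.2)
          rwa [hgc b] at h
        · simp only [g, dif_neg hb, dif_neg hb'] at hbb
          have key : ∀ (t : Colour L Z) (ht : τ b = t),
              (k t ⟨b, ht⟩ : Q') = k (τ b) ⟨b, rfl⟩ := by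
            rintro t rfl
            rfl
          exact congrArg Subtype.val (hk1 (τ b') (Subtype.ext ((key _ hc).trans hbb) :
            k (τ b') ⟨b, hc⟩ = k (τ b') ⟨b', rfl⟩))
  refine ⟨Set.range g, fun a ha => ⟨_, hgA ⟨a, ha⟩⟩, Cardinal.mk_range_le.trans hB2, ?_⟩
  let f' : Set.range g → Q := fun a => ((Equiv.ofInjective g hgi).symm a : Q)
  have hspec : ∀ a : Set.range g, g ((Equiv.ofInjective g hgi).symm a) = a :=
    fun a => Equiv.apply_ofInjective_symm hgi a
  have hgood : Good e (Set.range g) f' := by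
    refine ⟨Subtype.val_injective.comp (Equiv.injective _), fun a => ?_, ?_⟩
    · rw [← hspec a, hgc]
    · rintro ⟨_, b, rfl⟩ h
      have : (Equiv.ofInjective g hgi).symm ⟨g b, b, rfl⟩ = b :=
        Equiv.ofInjective_symm_apply hgi b
      simp only [f', this]
      exact (hgs b h).symm
  refine ⟨f', hgood, ?_⟩
  have hrange : Set.range f' = B := by
    ext q
    refine ⟨?_, fun hq => ⟨⟨g ⟨q, hq⟩, _, rfl⟩, ?_⟩⟩
    · rintro ⟨a, rfl⟩
      exact Subtype.prop _
    · exact congrArg Subtype.val (Equiv.ofInjective_symm_apply hgi ⟨q, hq⟩)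
  refine K.strong_left hB3 ((substructureEquiv (congrArg (block (s := s) τ) hrange)).comp
    (blockImageEquiv f' hgood.inj hgood.col)) fun p => ?_
  simp only [Language.Equiv.comp_apply, Language.Substructure.subtype_apply,
    coe_substructureEquiv]
  rfl

/-- Membership is preserved when the colour counts are changed above `l`. -/
theorem mem_of_similar (hl : ℵ₀ ≤ l) (hZ : #Z ≤ l) (hLS : K.HasLS l) (hM : K.Mem (Pt s τ))
    (hsim : ∀ t, cnt τ t ≤ l ∨ cnt τ' t ≤ l → cnt τ t = cnt τ' t) : K.Mem (Pt s τ') := by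
  classical
  let e : Matching l τ τ' := fun t ht => (Cardinal.eq.1 (hsim t (Or.inr ht)).symm).some
  have hlarge : ∀ t, ¬ cnt τ' t ≤ l → l < cnt τ t := by
    intro t ht
    by_contra hc
    exact ht (hsim t (Or.inl (not_lt.1 hc)) ▸ not_lt.1 hc)
  have hcoh : ∀ A A' : Set Q', IsGood K s e A → IsGood K s e A' → ∀ h : A ⊆ A',
      K.Strong (Language.Substructure.inclusion (block_mono (s := s) τ' h)) := by
    rintro A A' ⟨hA, f, hf, hfs⟩ ⟨-, f', hf', hfs'⟩ h
    let fr : A → Q := fun a => f' ⟨a, h a.2⟩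
    have hfr : Good e A fr := ⟨fun a b hab =>
      Subtype.ext (congrArg (fun x : A' => (x : Q')) (hf'.inj hab)),
      fun a => hf'.col _, fun a ha => hf'.small ⟨a, h a.2⟩ ha⟩
    exact K.coherence _ _ hfs'
      (K.strong_left (strong_of_good K hl hlarge hA hf hfr hfs) (Language.Equiv.refl L _) fun x => rfl)
  obtain ⟨cov, hcov⟩ : ∃ cov : Set Q' → Set Q', ∀ A : Set Q', #A ≤ l →
      A ⊆ cov A ∧ IsGood K s e (cov A) :=
    ⟨fun A => if h : #A ≤ l then (exists_good K hl hZ hLS hM e hlarge A h).choose else A,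
      fun A h => by
        simp only [dif_pos h]
        exact (exists_good K hl hZ hLS hM e hlarge A h).choose_spec⟩
  obtain ⟨G, hG⟩ : ∃ G : Finset Q' → Set Q', ∀ F,
      G F = cov ((F : Set Q') ∪ ⋃ F' : {F' // F' ⊂ F}, G F'.1) :=
    ⟨Finset.strongInduction fun F ih =>
      cov ((F : Set Q') ∪ ⋃ F' : {F' // F' ⊂ F}, ih F'.1 F'.2),
      fun F => Finset.strongInduction_eq _ F⟩
  have hGcard : ∀ F : Finset Q', #(G F) ≤ l ∧
      #(((F : Set Q') ∪ ⋃ F' : {F' // F' ⊂ F}, G F'.1 : Set Q')) ≤ l := by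
    intro F
    induction F using Finset.strongInduction with
    | H F ih =>
      have h2 : #(((F : Set Q') ∪ ⋃ F' : {F' // F' ⊂ F}, G F'.1 : Set Q')) ≤ l := by
        refine (Cardinal.mk_union_le _ _).trans
          ((add_le_add ?_ ?_).trans (Cardinal.add_eq_self hl).le)
        · exact (Cardinal.lt_aleph0_of_finite _).le.trans hl
        · have : Finite {F' // F' ⊂ F} :=
            Finite.of_injective (fun F' => (⟨F'.1, Finset.mem_powerset.2 F'.2.1⟩ : F.powerset))
              fun a b hab => Subtype.ext (congrArg (fun x : F.powerset => (x : Finset Q')) hab)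
          refine (Cardinal.mk_iUnion_le _).trans ?_
          refine (mul_le_mul' ((Cardinal.lt_aleph0_of_finite _).le.trans hl)
            (ciSup_le' fun (F' : {F' // F' ⊂ F}) => (ih F'.1 F'.2).1)).trans (Cardinal.mul_eq_self hl).le
      refine ⟨?_, h2⟩
      rw [hG]
      exact (hcov _ h2).2.1
  have hGspec : ∀ F : Finset Q', ((F : Set Q') ∪ ⋃ F' : {F' // F' ⊂ F}, G F'.1) ⊆ G F ∧ IsGood K s e (G F) := by
    intro F
    rw [hG F]
    exact hcov _ (hGcard F).2
  have hGmono : Monotone G := by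
    intro F F' h
    rcases eq_or_lt_of_le h with rfl | hlt
    · exact le_rfl
    · exact fun x hx => (hGspec F').1 (Or.inr (Set.mem_iUnion.2 ⟨⟨F, hlt⟩, hx⟩))
  have hD := directed_union K (fun F => block (s := s) τ' (G F)) ((block_mono τ').comp hGmono)
    (fun F F' h => hcoh _ _ (hGspec F).2 (hGspec F').2 (hGmono h)) Set.univ
  have hmem := (K.mem_of_strong _ (hD.1 ∅ (Set.subset_univ _))).2
  have htop : subOfSet (L := L) (unionOn (fun F => block (s := s) τ' (G F)) Set.univ) = ⊤ := by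
    refine eq_top_iff.2 fun p _ => ⟨{p.q}, Set.subset_univ _, ?_⟩
    exact (hGspec {p.q}).1 (Or.inl (by simp))
  exact K.mem_iso ((Language.Substructure.topEquiv).comp (substructureEquiv htop)) hmem

end Vale.Agent.P307
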