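import Vale.Agent.P307.Colour

/-!
# Decomposition of structures of small degree into components
-/

universe u

open FirstOrder Cardinal Relation

namespace Vale.Agent.P307

variable {L : Language.{u, u}} {Z : Type u}

theorem gaifmanAdj_symm (M : Type u) [L.Structure M] : Symmetric (GaifmanAdj L M) :=
  fun _ _ ⟨n, R, x, h, ha, hb⟩ => ⟨n, R, x, h, hb, ha⟩

/-- Connected components are small when degrees are small. -/
theorem mk_component_le {l : Cardinal.{u}} (hl : ℵ₀ ≤ l) {M : Type u} {r : M → M → Prop}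
    (hdeg : ∀ a, #{b // r a b} ≤ l) (a : M) : #{b // ReflTransGen r a b} ≤ l := by
  let ball : ℕ → Set M := fun n => Nat.rec {a} (fun _ B => B ∪ ⋃ b : B, {c | r b.1 c}) n
  have hball : ∀ n, ball (n + 1) = ball n ∪ ⋃ b : ↥(ball n), {c | r b.1 c} := fun n => rfl
  have hcard : ∀ n, #(↥(ball n)) ≤ l := by
    intro n
    induction n with
    | zero =>
      refine le_trans ?_ (one_le_aleph0.trans hl)
      exact (Cardinal.mk_singleton a).le
    | succ n ih =>
      rw [hball]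
      refine (Cardinal.mk_union_le _ _).trans ((add_le_add ih ?_).trans (Cardinal.add_eq_self hl).le)
      refine (Cardinal.mk_iUnion_le _).trans ?_
      exact (mul_le_mul' ih (ciSup_le' fun (b : ↥(ball n)) => hdeg b.1)).trans (Cardinal.mul_eq_self hl).le
  have hsub : {b | ReflTransGen r a b} ⊆ ⋃ n, ball n := by
    intro b hb
    induction hb with
    | refl => exact Set.mem_iUnion.2 ⟨0, rfl⟩
    | tail _ hbc ih =>
      obtain ⟨n, hn⟩ := Set.mem_iUnion.1 ih
      refine Set.mem_iUnion.2 ⟨n + 1, ?_⟩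
      rw [hball]
      exact Or.inr (Set.mem_iUnion.2 ⟨⟨_, hn⟩, hbc⟩)
  refine (Cardinal.mk_le_mk_of_subset hsub).trans ?_
  refine ((Cardinal.lift_id'.{0, u} _).ge.trans (Cardinal.mk_iUnion_le_lift ball)).trans ?_
  rw [Cardinal.mk_nat, Cardinal.lift_aleph0]
  refine (mul_le_mul' hl (ciSup_le' fun n => ?_)).trans (Cardinal.mul_eq_self hl).le
  rw [Cardinal.lift_id'.{0, u}]
  exact hcard n

variable [L.IsRelational]

/-- Every structure of small Gaifman degree is built from coloured pieces. -/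
theorem exists_decomp {l : Cardinal.{u}} (hl : ℵ₀ ≤ l) (hZ : l ≤ #Z) (M : Type u)
    [L.Structure M] (hdeg : ∀ a : M, #{b // GaifmanAdj L M a b} ≤ l) :
    ∃ (s : ∀ n, L.Relations n → Prop) (Q : Type u) (τ : Q → Colour L Z),
      Nonempty (Pt s τ ≃[L] M) := by
  classical
  have hsymm : ∀ {a b : M}, ReflTransGen (GaifmanAdj L M) a b →
      ReflTransGen (GaifmanAdj L M) b a := by
    intro a b h
    induction h with
    | refl => exact .refl
    | tail _ hbc ih => exact .head (gaifmanAdj_symm M hbc) ih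
  let S : Setoid M := ⟨ReflTransGen (GaifmanAdj L M),
    ⟨fun _ => ReflTransGen.refl, hsymm, ReflTransGen.trans⟩⟩
  let Q := Quotient S
  let cl : M → Q := Quotient.mk S
  have hcl : ∀ {n : ℕ} (R : L.Relations n) (x : Fin n → M),
      Language.Structure.RelMap R x → ∀ i j, cl (x i) = cl (x j) :=
    fun R x h i j => Quotient.sound (ReflTransGen.single ⟨_, R, x, h, ⟨i, rfl⟩, j, rfl⟩)
  have hemb : ∀ q : Q, Nonempty ({m // cl m = q} ↪ Z) := by
    intro q
    obtain ⟨a, rfl⟩ := Quotient.exists_rep q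
    refine Cardinal.le_def _ _ |>.1 (le_trans ?_ hZ)
    refine le_trans ?_ (mk_component_le hl hdeg a)
    exact Cardinal.mk_le_of_injective
      (f := fun m => (⟨m.1, hsymm (Quotient.exact m.2)⟩ : {b // ReflTransGen (GaifmanAdj L M) a b}))
      (fun m m' h => Subtype.ext (congrArg
        (fun x : {b // ReflTransGen (GaifmanAdj L M) a b} => (x : M)) h))
  let ι : ∀ q : Q, {m // cl m = q} ↪ Z := fun q => (hemb q).some
  let d : Q → Piece L Z := fun q =>
    ⟨Set.range (ι q), fun n R => {z | ∃ x : Fin n → {m // cl m = q},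
      Language.Structure.RelMap R (fun i => (x i : M)) ∧ ∀ i, ι q (x i) = z i}⟩
  have hd : ∀ q, (d q).Conn := by
    intro q
    obtain ⟨a, ha⟩ := Quotient.exists_rep q
    refine ⟨⟨_, ⟨a, ha⟩, rfl⟩, ?_⟩
    rintro _ ⟨⟨x, hx⟩, rfl⟩ _ ⟨⟨y, hy⟩, rfl⟩
    have hxy : ReflTransGen (GaifmanAdj L M) x y := Quotient.exact (hx.trans hy.symm)
    suffices ∀ y, ReflTransGen (GaifmanAdj L M) x y → ∀ hy : cl y = q,
        ReflTransGen (d q).Adj (ι q ⟨x, hx⟩) (ι q ⟨y, hy⟩) from this y hxy hy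
    intro y h
    induction h with
    | refl => exact fun _ => .refl
    | @tail b c hab hbc ih =>
      intro hc
      have hb : cl b = q := (Quotient.sound (ReflTransGen.single hbc)).trans hc
      refine .tail (ih hb) ?_
      obtain ⟨n, R, z, hR, ⟨i, hi⟩, j, hj⟩ := hbc
      have hz : ∀ k, cl (z k) = q := fun k => (hcl R z hR k i).trans (by rw [hi]; exact hb)
      refine ⟨n, R, fun k => ι q ⟨z k, hz k⟩, ⟨_, hR, fun k => rfl⟩, fun k => ⟨_, rfl⟩,
        ⟨i, ?_⟩, j, ?_⟩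
      · exact congrArg (ι q) (Subtype.ext hi)
      · exact congrArg (ι q) (Subtype.ext hj)
  let τ : Q → Colour L Z := fun q => Quotient.mk (pieceSetoid L Z) ⟨d q, hd q⟩
  have hiso : ∀ q, ((τ q).rep).IsIso (d q) := fun q =>
    (Quotient.mk_out (s := pieceSetoid L Z) ⟨d q, hd q⟩ : _)
  choose φ hφ using hiso
  let e : ∀ q, (τ q).rep.dom ≃ {m // cl m = q} :=
    fun q => (φ q).trans (Equiv.ofInjective (ι q) (ι q).injective).symm
  have he : ∀ (q : Q) (n : ℕ), n ≠ 0 → ∀ (R : L.Relations n) (x : Fin n → (τ q).rep.dom),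
      (Language.Structure.RelMap R (fun i => (e q (x i) : M)) ↔
        (fun i => (x i : Z)) ∈ (τ q).rep.rel n R) := by
    intro q n hn R x
    rw [← hφ q n hn R x]
    have hι : ∀ i, ι q (e q (x i)) = (φ q (x i) : Z) :=
      fun i => Equiv.apply_ofInjective_symm (ι q).injective _
    constructor
    · exact fun h => ⟨fun i => e q (x i), h, hι⟩
    · rintro ⟨y, hy, hyz⟩
      have : ∀ i, e q (x i) = y i := fun i => (ι q).injective ((hι i).trans (hyz i).symm)
      simpa only [this] using hy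
  let s : ∀ n, L.Relations n → Prop := fun n R =>
    ∃ x : Fin n → M, n = 0 ∧ Language.Structure.RelMap R x
  let f : Pt s τ → M := fun p => e p.q ⟨p.z, p.mem⟩
  have hfq : ∀ p : Pt s τ, cl (f p) = p.q := fun p => (e p.q ⟨p.z, p.mem⟩).2
  have hfb : Function.Bijective f := by
    refine ⟨fun p p' h => ?_, fun m => ?_⟩
    · obtain ⟨q, z, hz⟩ := p
      obtain ⟨q', z', hz'⟩ := p'
      obtain rfl : q = q' :=
        (hfq ⟨q, z, hz⟩).symm.trans ((congrArg cl h).trans (hfq ⟨q', z', hz'⟩))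
      exact Pt.ext rfl (congrArg Subtype.val ((e q).injective (Subtype.ext h)))
    · refine ⟨⟨cl m, ((e (cl m)).symm ⟨m, rfl⟩).1, ((e (cl m)).symm ⟨m, rfl⟩).2⟩, ?_⟩
      exact congrArg Subtype.val ((e (cl m)).apply_symm_apply ⟨m, rfl⟩)
  refine ⟨s, Q, τ, ⟨{ Equiv.ofBijective f hfb with
    map_fun' := fun g => isEmptyElim g
    map_rel' := ?_ }⟩⟩
  intro n R x
  show Language.Structure.RelMap R (f ∘ x) ↔ _
  by_cases hn : n = 0
  · subst hn
    have : f ∘ x = (fun i => i.elim0 : Fin 0 → M) := funext fun i => i.elim0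
    rw [this]
    constructor
    · exact fun h => Or.inl ⟨rfl, _, rfl, h⟩
    · rintro (⟨-, y, -, hy⟩ | ⟨h, -⟩)
      · exact (funext fun i => i.elim0 : y = fun i => i.elim0) ▸ hy
      · exact absurd rfl h
  · let i0 : Fin n := ⟨0, Nat.pos_of_ne_zero hn⟩
    constructor
    · intro h
      have hq : ∀ j, (x j).q = (x i0).q := fun j => by
        rw [← hfq, ← hfq]
        exact hcl R _ h j i0
      refine Or.inr ⟨hn, (x i0).q, hq, ?_⟩
      refine (he _ n hn R (fun j => ⟨(x j).z, hq j ▸ (x j).mem⟩)).1 ?_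
      convert h using 2 with j
      have key : ∀ (p : Pt s τ) (q : Q) (hq : p.q = q),
          (e q ⟨p.z, hq ▸ p.mem⟩ : M) = f p := by
        rintro p q rfl
        rfl
      exact key (x j) _ (hq j)
    · rintro (⟨h, -⟩ | ⟨-, q, hq, hr⟩)
      · exact absurd h hn
      · have := (he q n hn R (fun j => ⟨(x j).z, hq j ▸ (x j).mem⟩)).2 hr
        convert this using 2 with j
        have key : ∀ (p : Pt s τ) (q : Q) (hq : p.q = q),
            f p = (e q ⟨p.z, hq ▸ p.mem⟩ : M) := by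
          rintro p q rfl
          rfl
        exact key (x j) _ (hq j)

/-- An isomorphism of coloured models comes from a colour-preserving bijection of indices. -/
theorem colours_eq_of_equiv {s s' : ∀ n, L.Relations n → Prop} {Q Q' : Type u}
    {τ : Q → Colour L Z} {τ' : Q' → Colour L Z} (g : Pt s τ ≃[L] Pt s' τ') :
    ∃ σ : Q ≃ Q', ∀ q, τ' (σ q) = τ q := by
  have key : ∀ {s s' : ∀ n, L.Relations n → Prop} {Q Q' : Type u} {τ : Q → Colour L Z}
      {τ' : Q' → Colour L Z} (g : Pt s τ ≃[L] Pt s' τ') (p p' : Pt s τ), p.q = p'.q →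
        (g p).q = (g p').q := by
    intro s s' Q Q' τ τ' g p p' h
    obtain ⟨q, z, hz⟩ := p
    obtain ⟨q', z', hz'⟩ := p'
    simp only at h
    subst h
    suffices ∀ w, Relation.ReflTransGen (τ q).rep.Adj z w → ∀ hw : w ∈ (τ q).rep.dom,
        (g ⟨q, z, hz⟩).q = (g ⟨q, w, hw⟩).q from this z' ((τ q).rep_conn.2 z hz z' hz') hz'
    intro w h
    induction h with
    | refl => exact fun _ => rfl
    | @tail b c _ hbc ih =>
      intro hc
      obtain ⟨n, R, x, hR, hdom, ⟨i, hi⟩, j, hj⟩ := hbc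
      have hn : n ≠ 0 := (Fin.pos i).ne'
      have hrel : Language.Structure.RelMap R (fun k => (⟨q, x k, hdom k⟩ : Pt s τ)) :=
        Or.inr ⟨hn, q, fun _ => rfl, hR⟩
      rcases (g.map_rel' R _).2 hrel with ⟨h0, -⟩ | ⟨-, q', hq', -⟩
      · exact absurd h0 hn
      · have hb : (⟨q, b, hi ▸ hdom i⟩ : Pt s τ) = ⟨q, x i, hdom i⟩ := Pt.ext rfl hi.symm
        have hc' : (⟨q, c, hc⟩ : Pt s τ) = ⟨q, x j, hdom j⟩ := Pt.ext rfl hj.symm
        rw [ih (hi ▸ hdom i), hb, hc']
        exact (hq' i).trans (hq' j).symm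
  let base : ∀ q, Pt s τ := fun q => ⟨q, _, (τ q).rep_conn.1.some_mem⟩
  let base' : ∀ q, Pt s' τ' := fun q => ⟨q, _, (τ' q).rep_conn.1.some_mem⟩
  let σ : Q ≃ Q' :=
  { toFun := fun q => (g (base q)).q
    invFun := fun q => (g.symm (base' q)).q
    left_inv := fun q => by
      refine (key g.symm (base' _) (g (base q)) rfl).trans ?_
      rw [Language.Equiv.symm_apply_apply]
    right_inv := fun q => by
      refine (key g (base _) (g.symm (base' q)) rfl).trans ?_
      rw [Language.Equiv.apply_symm_apply] }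
  refine ⟨σ, fun q => (Colour.eq_of_isIso ?_).symm⟩
  have hq : ∀ (z : Z) (hz : z ∈ (τ q).rep.dom), (g ⟨q, z, hz⟩).q = σ q :=
    fun z hz => key g _ (base q) rfl
  have hq' : ∀ (z : Z) (hz : z ∈ (τ' (σ q)).rep.dom), (g.symm ⟨σ q, z, hz⟩).q = q := by
    intro z hz
    refine (key g.symm ⟨σ q, z, hz⟩ (g (base q)) rfl).trans ?_
    rw [Language.Equiv.symm_apply_apply]
  refine ⟨⟨fun a => ⟨(g ⟨q, a.1, a.2⟩).z, (congrArg (fun r => (τ' r).rep.dom) (hq a.1 a.2)).le (g ⟨q, a.1, a.2⟩).mem⟩,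
    fun a => ⟨(g.symm ⟨σ q, a.1, a.2⟩).z, (congrArg (fun r => (τ r).rep.dom) (hq' a.1 a.2)).le (g.symm ⟨σ q, a.1, a.2⟩).mem⟩,
    fun a => ?_, fun a => ?_⟩, fun n hn R x => ?_⟩
  · have h : ∀ h', (⟨σ q, (g ⟨q, a.1, a.2⟩).z, h'⟩ : Pt s' τ') = g ⟨q, a.1, a.2⟩ :=
      fun h' => Pt.ext (hq a.1 a.2).symm rfl
    apply Subtype.ext
    simp only [h, Language.Equiv.symm_apply_apply]
  · have h : ∀ h', (⟨q, (g.symm ⟨σ q, a.1, a.2⟩).z, h'⟩ : Pt s τ) = g.symm ⟨σ q, a.1, a.2⟩ :=
      fun h' => Pt.ext (hq' a.1 a.2).symm rfl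
    apply Subtype.ext
    simp only [h, Language.Equiv.apply_symm_apply]
  · have h1 := g.map_rel' R (fun i => (⟨q, (x i).1, (x i).2⟩ : Pt s τ))
    constructor
    · intro h
      rcases h1.1 (Or.inr ⟨hn, σ q, fun i => hq _ _, h⟩) with ⟨h0, -⟩ | ⟨-, q', hq'', hr⟩
      · exact absurd h0 hn
      · obtain rfl : q = q' := hq'' ⟨0, Nat.pos_of_ne_zero hn⟩
        exact hr
    · intro h
      rcases h1.2 (Or.inr ⟨hn, q, fun i => rfl, h⟩) with ⟨h0, -⟩ | ⟨-, q', hq'', hr⟩
      · exact absurd h0 hn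
      · have : σ q = q' := (hq _ _).symm.trans (hq'' ⟨0, Nat.pos_of_ne_zero hn⟩)
        subst this
        exact hr

end Vale.Agent.P307
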