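import Vale.Agent.P307.AEC

/-!
# Directed unions indexed by finite sets
-/

universe u

open FirstOrder Cardinal

namespace Vale.Agent.P307

variable {L : Language.{u, u}} (K : AEC L)

/-- The union of `P F`, for finite `F ⊆ I`, as a set. -/
def unionOn {U : Type u} [L.Structure U] {J : Type u} (P : Finset J → L.Substructure U)
    (I : Set J) : Set U :=
  {x | ∃ F : Finset J, (F : Set J) ⊆ I ∧ x ∈ P F}

variable [L.IsRelational]

/-- In a relational vocabulary every set is a substructure. -/
def subOfSet {U : Type u} [L.Structure U] (s : Set U) : L.Substructure U where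
  carrier := s
  fun_mem f := isEmptyElim f

@[simp]
theorem mem_subOfSet {U : Type u} [L.Structure U] (s : Set U) (x : U) :
    x ∈ subOfSet (L := L) s ↔ x ∈ s := Iff.rfl

theorem le_unionOn {U : Type u} [L.Structure U] {J : Type u} (P : Finset J → L.Substructure U)
    {I : Set J} {F : Finset J} (hF : (F : Set J) ⊆ I) : P F ≤ subOfSet (unionOn P I) :=
  fun _ hx => ⟨F, hF, hx⟩

theorem directed_union {U : Type u} [L.Structure U] {J : Type u}
    (P : Finset J → L.Substructure U) (hP : Monotone P)
    (hstrong : ∀ (F G : Finset J) (h : F ≤ G), K.Strong (Language.Substructure.inclusion (hP h)))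
    (I : Set J) :
    (∀ (F : Finset J) (hF : (F : Set J) ⊆ I),
      K.Strong (Language.Substructure.inclusion (le_unionOn P hF))) ∧
    ∀ (N : Type u) [L.Structure N] (g : (subOfSet (L := L) (unionOn P I)) ↪[L] N),
      (∀ (F : Finset J) (hF : (F : Set J) ⊆ I),
        K.Strong (g.comp (Language.Substructure.inclusion (le_unionOn P hF)))) → K.Strong g := by
  induction hc : #I using WellFoundedLT.induction generalizing I with
  | ind c ih =>
    subst hc
    rcases I.finite_or_infinite with hfin | hinf
    · have hI : (hfin.toFinset : Set J) ⊆ I := by simp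
      have heq : subOfSet (unionOn P I) = P hfin.toFinset := by
        ext x
        refine ⟨?_, fun hx => ⟨_, hI, hx⟩⟩
        rintro ⟨F, hF, hx⟩
        exact hP (by intro a ha; simpa using hF ha) hx
      refine ⟨fun F hF => ?_, fun N _ g hg => ?_⟩
      · have hle : F ≤ hfin.toFinset := by intro a ha; simpa using hF ha
        exact K.strong_right (hstrong F _ hle) (substructureEquiv heq.symm)
          (fun x => Subtype.ext (by simp))
      · refine K.strong_left (hg _ hI) (substructureEquiv heq) (fun x => ?_)
        exact congrArg g (Subtype.ext (by simp))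
    · have hinf' : ℵ₀ ≤ #I := by
        have := hinf.to_subtype
        exact aleph0_le_mk I
      obtain ⟨lo, hwf, hr⟩ := Cardinal.exists_ord_eq_type_lt I
      have : Nonempty I := hinf.nonempty.to_subtype
      let seg : I → Set J := fun i => Subtype.val '' {j : I | j ≤ i}
      have hsegsub : ∀ i, seg i ⊆ I := by
        rintro i _ ⟨j, -, rfl⟩
        exact j.2
      have hsegmono : Monotone seg := fun i j h => Set.image_mono fun k hk => le_trans hk h
      have hsegcard : ∀ i, #(seg i) < #I := by
        intro i
        refine lt_of_le_of_lt Cardinal.mk_image_le ?_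
        have hsub : {j : I | j ≤ i} ⊆ insert i {j : I | j < i} := by
          intro j hj
          rcases eq_or_lt_of_le (show j ≤ i from hj) with h | h
          · exact Or.inl h
          · exact Or.inr h
        refine lt_of_le_of_lt ((Cardinal.mk_le_mk_of_subset hsub).trans Cardinal.mk_insert_le) ?_
        refine Cardinal.add_lt_of_lt hinf' ?_ (lt_of_lt_of_le one_lt_aleph0 hinf')
        have h1 := Cardinal.card_typein_lt (r := (· < ·)) i hr
        rwa [Ordinal.card_typein] at h1
      have hle : ∀ i, subOfSet (L := L) (unionOn P (seg i)) ≤ subOfSet (unionOn P I) := by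
        rintro i x ⟨F, hF, hx⟩
        exact ⟨F, hF.trans (hsegsub i), hx⟩
      have hSmono : Monotone fun i => subOfSet (L := L) (unionOn P (seg i)) := by
        rintro i j h x ⟨F, hF, hx⟩
        exact ⟨F, hF.trans (hsegmono h), hx⟩
      have hfin_seg : ∀ F : Finset J, (F : Set J) ⊆ I → ∃ i, (F : Set J) ⊆ seg i := by
        intro F hF
        classical
        let F' : Finset I := F.subtype (· ∈ I)
        obtain ⟨i, hi⟩ := F'.bddAbove
        refine ⟨i, fun a ha => ⟨⟨a, hF ha⟩, ?_, rfl⟩⟩
        exact hi (by simpa [F'] using ha)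
      have hcover : ∀ x ∈ subOfSet (L := L) (unionOn P I),
          ∃ i, x ∈ subOfSet (L := L) (unionOn P (seg i)) := by
        rintro x ⟨F, hF, hx⟩
        obtain ⟨i, hi⟩ := hfin_seg F hF
        exact ⟨i, F, hi, hx⟩
      have hchain : ∀ (i j : I) (h : i ≤ j),
          K.Strong (Language.Substructure.inclusion (hSmono h)) := by
        intro i j h
        refine (ih _ (hsegcard i) (seg i) rfl).2 _ _ fun F hF => ?_
        exact (ih _ (hsegcard j) (seg j) rfl).1 F (hF.trans (hsegmono h))
      obtain ⟨h1, h2⟩ := K.chain_in I (fun i => subOfSet (L := L) (unionOn P (seg i)))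
        (subOfSet (unionOn P I)) hSmono hle hcover hchain
      refine ⟨fun F hF => ?_, fun N _ g hg => ?_⟩
      · obtain ⟨i, hi⟩ := hfin_seg F hF
        exact K.strong_trans _ _ ((ih _ (hsegcard i) (seg i) rfl).1 F hi) (h1 i)
      · refine h2 N g fun i => ?_
        refine (ih _ (hsegcard i) (seg i) rfl).2 _ _ fun F hF => ?_
        exact hg F (hF.trans (hsegsub i))

end Vale.Agent.P307
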