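import Vale.Agent.P307.Core
import Vale.Agent.P307.Decomp

/-!
# Categoricity transfer
-/

universe u

open FirstOrder Cardinal

namespace Vale.Agent.P307

variable {L : Language.{u, u}} {Z : Type u} [L.IsRelational]

theorem mk_index_eq {l κ : Cardinal.{u}} (hl : ℵ₀ ≤ l) (hZ : #Z ≤ l) (hκ : l < κ)
    {s : ∀ n, L.Relations n → Prop} {Q : Type u} {τ : Q → Colour L Z} (h : #(Pt s τ) = κ) :
    #Q = κ := by
  refine le_antisymm (h ▸ le_mk_pt τ) ?_
  by_contra hlt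
  rw [not_le] at hlt
  have : κ ≤ #Q * l := h ▸ (mk_pt_le τ).trans (mul_le_mul' le_rfl hZ)
  exact absurd this (not_le.2 (Cardinal.mul_lt_of_lt (hl.trans hκ.le) hlt hκ))

theorem exists_large {l κ : Cardinal.{u}} (hl : ℵ₀ ≤ l) (hL : L.card ≤ l) (hZ : #Z ≤ l)
    (hκ : 2 ^ l < κ) {Q : Type u} (τ : Q → Colour L Z) (hQ : #Q = κ) : ∃ t, l < cnt τ t := by
  by_contra! hle
  have h2 : #Q ≤ 2 ^ l := by
    rw [← Cardinal.mk_congr (Equiv.sigmaFiberEquiv τ), Cardinal.mk_sigma]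
    refine (Cardinal.sum_le_sum _ (fun _ => l) hle).trans ?_
    rw [Cardinal.sum_const, Cardinal.lift_id, Cardinal.lift_id]
    have h2l : ℵ₀ ≤ (2 : Cardinal.{u}) ^ l := hl.trans (Cardinal.cantor l).le
    exact (mul_le_mul' (mk_colour_le hl hZ hL) (Cardinal.cantor l).le).trans
      (Cardinal.mul_eq_self h2l).le
  exact absurd (hQ ▸ h2) (not_le.2 hκ)

open scoped Classical in
/-- The count profile with colour `t₀` resized to `c` and other large colours cut to `succ l`. -/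
noncomputable def newCnt (l : Cardinal.{u}) {Q : Type u} (τ : Q → Colour L Z) (t₀ : Colour L Z)
    (c : Cardinal.{u}) (t : Colour L Z) : Cardinal.{u} :=
  if t = t₀ then c else if cnt τ t ≤ l then cnt τ t else Order.succ l

theorem exists_resize (K : AEC L) {l : Cardinal.{u}} (hl : ℵ₀ ≤ l) (hL : L.card ≤ l)
    (hZ : #Z ≤ l) (hLS : K.HasLS l) {s : ∀ n, L.Relations n → Prop} {Q : Type u}
    {τ : Q → Colour L Z} (hM : K.Mem (Pt s τ)) {t₀ : Colour L Z} (ht₀ : l < cnt τ t₀)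
    {c : Cardinal.{u}} (hc : 2 ^ l < c) :
    ∃ (Q' : Type u) (τ' : Q' → Colour L Z),
      (∀ t, cnt τ' t = newCnt l τ t₀ c t) ∧ K.Mem (Pt s τ') ∧ #(Pt s τ') = c := by
  classical
  have hlc : l < c := (Cardinal.cantor l).trans hc
  let τ' : (Σ t, (newCnt l τ t₀ c t).out) → Colour L Z := Sigma.fst
  have hcnt : ∀ t, cnt τ' t = newCnt l τ t₀ c t := fun t =>
    (Cardinal.mk_congr (Equiv.sigmaSubtype t)).trans (Cardinal.mk_out _)
  have hcinf : ℵ₀ ≤ c := hl.trans hlc.le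
  have hQ' : #(Σ t, (newCnt l τ t₀ c t).out) = c := by
    apply le_antisymm
    · rw [Cardinal.mk_sigma]
      simp only [Cardinal.mk_out]
      refine (Cardinal.sum_le_sum _ (fun _ => c) fun t => ?_).trans ?_
      · simp only [newCnt]
        split_ifs with h1 h2
        · exact le_rfl
        · exact h2.trans hlc.le
        · exact Order.succ_le_of_lt hlc
      · rw [Cardinal.sum_const, Cardinal.lift_id, Cardinal.lift_id]
        exact (mul_le_mul' ((mk_colour_le hl hZ hL).trans hc.le) le_rfl).trans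
          (Cardinal.mul_eq_self hcinf).le
    · have h := (hcnt t₀).symm.le.trans (Cardinal.mk_subtype_le _)
      simpa [newCnt] using h
  refine ⟨_, τ', hcnt, mem_of_similar K hl hZ hLS hM ?_, ?_⟩
  · intro t ht
    rw [hcnt, newCnt] at *
    rcases eq_or_ne t t₀ with rfl | hne
    · simp only [if_pos] at ht
      rcases ht with h | h
      · exact absurd h (not_le.2 ht₀)
      · exact absurd h (not_le.2 hlc)
    · simp only [if_neg hne] at ht ⊢
      by_cases h : cnt τ t ≤ l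
      · simp [h]
      · rw [if_neg h] at ht
        rcases ht with h' | h'
        · exact absurd h' h
        · exact absurd h' (not_le.2 (Order.lt_succ l))
  · refine le_antisymm ?_ (hQ'.ge.trans (le_mk_pt (s := s) τ'))
    refine (mk_pt_le τ').trans ?_
    rw [hQ']
    exact (mul_le_mul' le_rfl (hZ.trans hlc.le)).trans (Cardinal.mul_eq_self hcinf).le

theorem nullary_eq {s s' : ∀ n, L.Relations n → Prop} {Q Q' : Type u}
    {τ : Q → Colour L Z} {τ' : Q' → Colour L Z} (g : Pt s τ ≃[L] Pt s' τ')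
    (R : L.Relations 0) : s 0 R ↔ s' 0 R := by
  have h := g.map_rel' R (fun i => i.elim0)
  simpa [Language.Structure.RelMap] using h.symm

theorem cnt_eq_of_equiv {s s' : ∀ n, L.Relations n → Prop} {Q Q' : Type u}
    {τ : Q → Colour L Z} {τ' : Q' → Colour L Z} (g : Pt s τ ≃[L] Pt s' τ') (t : Colour L Z) :
    cnt τ t = cnt τ' t := by
  obtain ⟨σ, hσ⟩ := colours_eq_of_equiv g
  exact Cardinal.mk_congr (σ.subtypeEquiv fun q => by rw [hσ])

theorem equiv_of_cnt_eq {s s' : ∀ n, L.Relations n → Prop} {Q Q' : Type u}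
    {τ : Q → Colour L Z} {τ' : Q' → Colour L Z} (hs : ∀ R : L.Relations 0, s 0 R ↔ s' 0 R)
    (h : ∀ t, cnt τ t = cnt τ' t) : Nonempty (Pt s τ ≃[L] Pt s' τ') := by
  let e : ∀ t, {q // τ q = t} ≃ {q // τ' q = t} := fun t => (Cardinal.eq.1 (h t)).some
  let σ : Q ≃ Q' := (Equiv.sigmaFiberEquiv τ).symm.trans
    ((Equiv.sigmaCongrRight e).trans (Equiv.sigmaFiberEquiv τ'))
  have hσ : ∀ q, τ' (σ q) = τ q := fun q => (e (τ q) ⟨q, rfl⟩).2
  have g : Pt s τ' ≃[L] Pt s' τ' :=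
    { toFun := fun p => ⟨p.q, p.z, p.mem⟩
      invFun := fun p => ⟨p.q, p.z, p.mem⟩
      left_inv := fun _ => rfl
      right_inv := fun _ => rfl
      map_fun' := fun f => isEmptyElim f
      map_rel' := fun {n} R x => by
        refine or_congr ?_ Iff.rfl
        constructor
        · rintro ⟨rfl, h⟩
          exact ⟨rfl, (hs R).2 h⟩
        · rintro ⟨rfl, h⟩
          exact ⟨rfl, (hs R).1 h⟩ }
  exact ⟨g.comp (ptEquiv σ hσ)⟩

/-- Transfer of categoricity above `2 ^ l`. -/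
theorem categorical_transfer (K : AEC L) {l : Cardinal.{u}} (hl : ℵ₀ ≤ l) (hL : L.card ≤ l)
    (hLS : K.HasLS l)
    (hdeg : ∀ (M : Type u) [L.Structure M], K.Mem M → ∀ a : M, #{b // GaifmanAdj L M a b} ≤ l)
    {κ κ' : Cardinal.{u}} (hκ : 2 ^ l < κ) (hκ' : 2 ^ l < κ') (hcat : K.Categorical κ) :
    K.Categorical κ' := by
  classical
  have hlκ : l < κ := (Cardinal.cantor l).trans hκ
  have hsκ : Order.succ l < κ := lt_of_le_of_lt (Order.succ_le_of_lt (Cardinal.cantor l)) hκ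
  have hZ : #l.out = l := Cardinal.mk_out l
  have hdec : ∀ (M : Type u) [L.Structure M], K.Mem M →
      ∃ (s : ∀ n, L.Relations n → Prop) (Q : Type u) (τ : Q → Colour L l.out),
        K.Mem (Pt s τ) ∧ Nonempty (Pt s τ ≃[L] M) := by
    intro M _ hM
    obtain ⟨s, Q, τ, ⟨g⟩⟩ := exists_decomp hl hZ.ge M (hdeg M hM)
    exact ⟨s, Q, τ, K.mem_iso g.symm hM, ⟨g⟩⟩
  obtain ⟨M₀, str, hM₀, hcard₀⟩ := hcat.1
  obtain ⟨s, Q, τ, hMem, ⟨g₀⟩⟩ := hdec M₀ hM₀
  have hcard : #(Pt s τ) = κ := (Cardinal.mk_congr g₀.toEquiv).trans hcard₀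
  -- every large colour of every large model resizes to the model of size `κ`
  have hmain : ∀ (s₁ : ∀ n, L.Relations n → Prop) (Q₁ : Type u) (τ₁ : Q₁ → Colour L l.out),
      K.Mem (Pt s₁ τ₁) → ∀ t₁, l < cnt τ₁ t₁ →
        (∀ R : L.Relations 0, s₁ 0 R ↔ s 0 R) ∧ ∀ t, newCnt l τ₁ t₁ κ t = cnt τ t := by
    intro s₁ Q₁ τ₁ hmem t₁ ht₁
    obtain ⟨Q', τ', hcnt, hmem', hcard'⟩ := exists_resize K hl hL hZ.le hLS hmem ht₁ hκ
    obtain ⟨g⟩ := hcat.2 _ _ hmem' hMem hcard' hcard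
    exact ⟨fun R => nullary_eq g R, fun t => (hcnt t).symm.trans (cnt_eq_of_equiv g t)⟩
  obtain ⟨t₀, ht₀⟩ := exists_large hl hL hZ.le hκ τ (mk_index_eq hl hZ.le hlκ hcard)
  have hcnt₀ : ∀ t, l < cnt τ t → cnt τ t = κ := by
    intro t ht
    have := (hmain s Q τ hMem t ht).2 t
    simpa [newCnt] using this.symm
  have hunique : ∀ t, l < cnt τ t → t = t₀ := by
    intro t ht
    by_contra hne
    have h := (hmain s Q τ hMem t₀ ht₀).2 t
    simp only [newCnt, if_neg hne, if_neg (not_le.2 ht)] at h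
    exact hsκ.ne (h.trans (hcnt₀ t ht))
  have hany : ∀ (s₁ : ∀ n, L.Relations n → Prop) (Q₁ : Type u) (τ₁ : Q₁ → Colour L l.out),
      K.Mem (Pt s₁ τ₁) → #(Pt s₁ τ₁) = κ' →
        (∀ R : L.Relations 0, s₁ 0 R ↔ s 0 R) ∧
          (∀ t, t ≠ t₀ → cnt τ₁ t = cnt τ t) ∧ cnt τ₁ t₀ = κ' := by
    intro s₁ Q₁ τ₁ hmem hc
    have hQ₁ := mk_index_eq hl hZ.le ((Cardinal.cantor l).trans hκ') hc
    obtain ⟨t₁, ht₁⟩ := exists_large hl hL hZ.le hκ' τ₁ hQ₁
    obtain ⟨hs, hn⟩ := hmain s₁ Q₁ τ₁ hmem t₁ ht₁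
    have h1 : t₁ = t₀ := by
      apply hunique
      rw [← hn t₁]
      simpa [newCnt] using hlκ
    subst h1
    have hoff : ∀ t, t ≠ t₁ → cnt τ t ≤ l := fun t hne =>
      not_lt.1 fun hlt => hne (hunique t hlt)
    have hsame : ∀ t, t ≠ t₁ → cnt τ₁ t = cnt τ t := by
      intro t hne
      have h := hn t
      simp only [newCnt, if_neg hne] at h
      split_ifs at h with hsmall
      · exact h
      · exact absurd (h ▸ hoff t hne) (not_le.2 (Order.lt_succ l))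
    refine ⟨hs, hsame, le_antisymm (hQ₁ ▸ Cardinal.mk_subtype_le _) ?_⟩
    by_contra hlt
    rw [not_le] at hlt
    have hκinf : ℵ₀ ≤ κ' := hl.trans ((Cardinal.cantor l).le.trans hκ'.le)
    have hle : ∀ t, cnt τ₁ t ≤ max (cnt τ₁ t₁) l := by
      intro t
      rcases eq_or_ne t t₁ with rfl | hne
      · exact le_max_left _ _
      · exact (hsame t hne).le.trans ((hoff t hne).trans (le_max_right _ _))
    have h2 : #Q₁ ≤ 2 ^ l * max (cnt τ₁ t₁) l := by
      rw [← Cardinal.mk_congr (Equiv.sigmaFiberEquiv τ₁), Cardinal.mk_sigma]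
      refine (Cardinal.sum_le_sum _ (fun _ => _) hle).trans ?_
      rw [Cardinal.sum_const, Cardinal.lift_id, Cardinal.lift_id]
      exact mul_le_mul' (mk_colour_le hl hZ.le hL) le_rfl
    exact absurd (hQ₁ ▸ h2) (not_le.2 (Cardinal.mul_lt_of_lt hκinf hκ'
      (max_lt hlt ((Cardinal.cantor l).trans hκ'))))
  constructor
  · obtain ⟨Q', τ', -, hmem, hc⟩ := exists_resize K hl hL hZ.le hLS hMem ht₀ hκ'
    exact ⟨_, _, hmem, hc⟩
  · intro M N _ _ hM hN hMc hNc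
    obtain ⟨s₁, Q₁, τ₁, hm₁, ⟨g₁⟩⟩ := hdec M hM
    obtain ⟨s₂, Q₂, τ₂, hm₂, ⟨g₂⟩⟩ := hdec N hN
    obtain ⟨a1, b1, c1⟩ := hany s₁ Q₁ τ₁ hm₁ ((Cardinal.mk_congr g₁.toEquiv).trans hMc)
    obtain ⟨a2, b2, c2⟩ := hany s₂ Q₂ τ₂ hm₂ ((Cardinal.mk_congr g₂.toEquiv).trans hNc)
    obtain ⟨g⟩ := equiv_of_cnt_eq (s := s₁) (s' := s₂) (τ := τ₁) (τ' := τ₂)
      (fun R => (a1 R).trans (a2 R).symm) fun t => by
        rcases eq_or_ne t t₀ with rfl | hne
        · rw [c1, c2]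
        · rw [b1 t hne, b2 t hne]
    exact ⟨(g₂.comp g).comp g₁.symm⟩

end Vale.Agent.P307
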